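import Vale.Agent.P269A.Defs
import Vale.Agent.P269F.Defs

/-!
# P269: smooth complete intersections and their cohomology (definitions only)
-/

noncomputable section

namespace Vale.Agent.P269H

open P269F MvPolynomial
open scoped LinearAlgebra.Projectivization

variable (r c : ℕ) (M : Type) [TopologicalSpace M] [ChartedSpace (Fin r → ℂ) M]

/-- The complex manifold `M` of dimension `r` is a smooth complete intersection in `P^(r+c)`:
`pt` is a holomorphic embedding onto the zero set of `c` homogeneous polynomials `f j` of degree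
`dg j` whose differentials are independent along it. -/
structure CI where
  f : Fin c → MvPolynomial (Fin (r + c + 1)) ℂ
  dg : Fin c → ℕ
  hom : ∀ j, (f j).IsHomogeneous (dg j)
  pt : M → ℙ ℂ (Fin (r + c + 1) → ℂ)
  inj : Function.Injective pt
  rng : ∀ y, y ∈ Set.range pt ↔ ∀ j, eval y.rep (f j) = 0
  ind : ∀ x, LinearIndependent ℂ fun j a => eval (pt x).rep (pderiv a (f j))
  hol : ∀ e ∈ atlas (Fin r → ℂ) M, ∀ x ∈ e.source, ∀ i, (pt x).rep i ≠ 0 →
    AnalyticAt ℂ (fun w => ((pt (e.symm w)).rep i)⁻¹ • (pt (e.symm w)).rep) (e x) ∧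
    Function.Injective
      (fderiv ℂ (fun w => ((pt (e.symm w)).rep i)⁻¹ • (pt (e.symm w)).rep) (e x))

variable {r M} in
/-- The form `u` is closed. -/
def Closed (u : Fm r M) : Prop := ∀ e ∈ atlas (Fin r → ℂ) M, ∀ x ∈ e.source, d (u e) (e x) = 0

/-- A basis of the de Rham cohomology `H^*(M; ℂ)` represented by closed forms `φ a` of type
`(p a, q a)`, with `φ o = 1`. -/
structure Bas (ι : Type) [Fintype ι] where
  φ : ι → Fm r M
  p : ι → ℕ
  q : ι → ℕ
  o : ι
  form : ∀ a, IsForm (φ a)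
  closed : ∀ a, Closed (φ a)
  ty : ∀ a, ∀ e ∈ atlas (Fin r → ℂ) M, ∀ x ∈ e.source, Ty (p a) (q a) (φ a e (e x))
  one : φ o = 1
  ind : ∀ s : ι → ℂ, Exact (∑ a, s a • φ a) → s = 0
  span : ∀ u : Fm r M, IsForm u → Closed u → ∃ s : ι → ℂ, Exact (u - ∑ a, s a • φ a)

variable {r c M} (X : CI r c M)

/-- The hyperplane class: the Chern form of `O(1)` with the Fubini-Study metric, in which the
section `x_i` has squared length `|x_i|^2 / ∑ |x_a|^2`. -/
def CI.H : Fm r M := fun e z =>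
  c1 (fun w => ‖(X.pt (e.symm w)).rep
    (Classical.epsilon fun i => (X.pt (e.symm z)).rep i ≠ 0)‖ ^ 2 /
      ∑ a, ‖(X.pt (e.symm w)).rep a‖ ^ 2) z

/-- `c_j(TX) = γ j • H ^ j`, from `c(TX) = (1 + H) ^ (N + 1) / ∏ (1 + d_j H)`. -/
def CI.γ (j : ℕ) : ℂ := PowerSeries.coeff j
  ((1 + PowerSeries.X) ^ (r + c + 1) * ∏ i, (1 + (X.dg i : ℂ) • PowerSeries.X)⁻¹)

/-- `c_1(TX) = idx • H`. -/
def CI.idx : ℤ := r + c + 1 - ∑ j, X.dg j

/-- The cohomological data of `X` in the basis `B`. -/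
def CI.coh {ι : Type} [Fintype ι] (B : Bas r M ι) : P269A.Coh ι :=
  ⟨r, B.p, B.q, B.o, X.γ, fun e l => intg (X.H ^ e * (l.map B.φ).prod)⟩

end Vale.Agent.P269H
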